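import Mathlib

namespace Vale.Agent.P238

/-- one insertion, deletion or substitution -/
inductive Step {α : Type} : List α → List α → Prop
  | ins (a b : List α) (c : α) : Step (a ++ b) (a ++ c :: b)
  | del (a b : List α) (c : α) : Step (a ++ c :: b) (a ++ b)
  | sub (a b : List α) (c d : α) : Step (a ++ c :: b) (a ++ d :: b)

/-- `k` operations transform `x` into `y` -/
inductive Steps {α : Type} : ℕ → List α → List α → Prop
  | refl (x : List α) : Steps 0 x x
  | tail {k : ℕ} {x y z : List α} : Steps k x y → Step y z → Steps (k + 1) x z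

/-- edit distance -/
noncomputable def ED {α : Type} (x y : List α) : ℕ := sInf {k | Steps k x y}

/-- least distortion of an injective map into `ℓ_1` -/
noncomputable def c1 (X : Type) (ρ : X → X → ℝ) : ℝ :=
  sInf {D | ∃ f : X → lp (fun _ : ℕ => ℝ) 1, Function.Injective f ∧
    D = (⨆ p : {p : X × X // p.1 ≠ p.2}, ‖f p.1.1 - f p.1.2‖ / ρ p.1.1 p.1.2) *
      (⨆ p : {p : X × X // p.1 ≠ p.2}, ρ p.1.1 p.1.2 / ‖f p.1.1 - f p.1.2‖)}

end Vale.Agent.P238
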