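import Vale.Agent.P238.Defs

/-! Basic facts on edit distance and common subsequences. -/

open List

namespace Vale.Agent.P238

variable {α β : Type}

lemma Steps.trans {k l : ℕ} {x y z : List α} (h : Steps k x y) (h' : Steps l y z) :
    Steps (k + l) x z := by
  induction h' with
  | refl => exact h
  | tail _ s ih => exact (ih h).tail s

lemma Step.ctx {x y : List α} (h : Step x y) (u v : List α) : Step (u ++ x ++ v) (u ++ y ++ v) := by
  cases h with
  | ins a b c => simpa using Step.ins (u ++ a) (b ++ v) c
  | del a b c => simpa using Step.del (u ++ a) (b ++ v) c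
  | sub a b c d => simpa using Step.sub (u ++ a) (b ++ v) c d

lemma Steps.ctx {k : ℕ} {x y : List α} (h : Steps k x y) (u v : List α) :
    Steps k (u ++ x ++ v) (u ++ y ++ v) := by
  induction h with
  | refl => exact .refl _
  | tail _ s ih => exact ih.tail (s.ctx u v)

lemma steps_nil (x : List α) : Steps x.length [] x ∧ Steps x.length x [] := by
  induction x with
  | nil => exact ⟨.refl _, .refl _⟩
  | cons c x ih =>
    refine ⟨ih.1.tail (Step.ins [] x c), ?_⟩
    simpa [add_comm] using ((Steps.refl _).tail (Step.del [] x c)).trans ih.2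

lemma ed_le {k : ℕ} {x y : List α} (h : Steps k x y) : ED x y ≤ k := Nat.sInf_le h

lemma steps_ed (x y : List α) : Steps (ED x y) x y :=
  Nat.sInf_mem (s := {k | Steps k x y}) ⟨_, (steps_nil x).2.trans (steps_nil y).1⟩

lemma ed_self (x : List α) : ED x x = 0 := Nat.le_zero.1 (ed_le (.refl x))

lemma eq_of_ed {x y : List α} (h : ED x y = 0) : x = y := by
  have := steps_ed x y
  rw [h] at this
  cases this
  rfl

lemma ed_tri (x y z : List α) : ED x z ≤ ED x y + ED y z :=
  ed_le ((steps_ed x y).trans (steps_ed y z))

lemma ed_append (a b c d : List α) : ED (a ++ b) (c ++ d) ≤ ED a c + ED b d :=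
  ed_le (Steps.trans (by simpa using (steps_ed a c).ctx [] b)
    (by simpa using (steps_ed b d).ctx c []))

lemma ed_len (x y : List α) : ED x y ≤ x.length + y.length :=
  ed_le ((steps_nil x).2.trans (steps_nil y).1)

lemma ed_map (f : α → β) (x y : List α) : ED (x.map f) (y.map f) ≤ ED x y := by
  refine ed_le ?_
  generalize ED x y = k, steps_ed x y = h
  induction h with
  | refl => exact .refl _
  | tail _ s ih =>
    refine ih.tail ?_
    cases s with
    | ins a b c => simpa using Step.ins (a.map f) (b.map f) (f c)
    | del a b c => simpa using Step.del (a.map f) (b.map f) (f c)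
    | sub a b c d => simpa using Step.sub (a.map f) (b.map f) (f c) (f d)

lemma ed_mid (a x y b : List α) : ED (a ++ (x ++ b)) (a ++ (y ++ b)) ≤ x.length + y.length :=
  (ed_append _ _ _ _).trans (by
    simpa [ed_self] using (ed_append x b y b).trans (by simpa [ed_self] using ed_len x y))

lemma ed_code (φ : α → List β) {l : ℕ} (hl : ∀ a, (φ a).length = l) (x y : List α) :
    ED (x.flatMap φ) (y.flatMap φ) ≤ 2 * l * ED x y := by
  generalize ED x y = k, steps_ed x y = h
  induction h with
  | refl => simp [ed_self]
  | tail _ s ih =>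
    refine (ed_tri _ _ _).trans ((add_le_add_left ih _).trans ?_)
    rw [mul_add_one]
    refine add_le_add_right ?_ _
    cases s with
    | ins a b c =>
      have := ed_mid (a.flatMap φ) [] (φ c) (b.flatMap φ)
      simp only [flatMap_append, flatMap_cons, hl, nil_append, length_nil] at this ⊢
      omega
    | del a b c =>
      have := ed_mid (a.flatMap φ) (φ c) [] (b.flatMap φ)
      simp only [flatMap_append, flatMap_cons, hl, nil_append, length_nil] at this ⊢
      omega
    | sub a b c d =>
      have := ed_mid (a.flatMap φ) (φ c) (φ d) (b.flatMap φ)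
      simp only [flatMap_append, flatMap_cons, hl] at this ⊢
      omega

lemma ed_flatMap (l : List β) (f g : β → List α) :
    ED (l.flatMap f) (l.flatMap g) ≤ (l.map fun a => ED (f a) (g a)).sum := by
  induction l with
  | nil => simp [ed_self]
  | cons a l ih => simpa using (ed_append _ _ _ _).trans (add_le_add_right ih _)

lemma ed_shift (L : ℕ → List α) {n : ℕ} (hL : ∀ j, (L j).length = n) (m δ : ℕ) :
    ED ((range m).flatMap L) ((range m).flatMap fun j => L (δ + j)) ≤ 2 * n * δ := by
  induction δ with
  | zero => simp [ed_self]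
  | succ δ ih =>
    refine (ed_tri _ _ _).trans ((add_le_add_left ih _).trans ?_)
    rw [mul_add_one]
    refine add_le_add_right ?_ _
    have e : ((range m).flatMap fun j => L (δ + j)) ++ L (δ + m)
        = L δ ++ (range m).flatMap fun j => L (δ + 1 + j) := by
      have h1 := congrArg (flatMap fun j => L (δ + j)) (range_succ (n := m))
      rw [range_succ_eq_map] at h1
      simpa [flatMap_map, add_assoc, add_comm 1] using h1.symm
    have h1 := ed_mid ((range m).flatMap fun j => L (δ + j)) [] (L (δ + m)) []
    have h2 := ed_mid [] (L δ) [] ((range m).flatMap fun j => L (δ + 1 + j))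
    simp only [append_nil, nil_append, length_nil, hL] at h1 h2
    rw [e] at h1
    refine (ed_tri _ _ _).trans ((add_le_add h1 h2).trans (by omega))

lemma Steps.common {k : ℕ} {x y : List α} (h : Steps k x y) :
    ∃ z, z <+ x ∧ z <+ y ∧ x.length ≤ z.length + k := by
  induction h with
  | refl => exact ⟨_, .refl _, .refl _, le_rfl⟩
  | @tail _ x _ _ _ s ih =>
    obtain ⟨z, h1, h2, h3⟩ := ih
    have key : ∀ a b (c : α), z <+ a ++ c :: b → ∃ z', z' <+ x ∧ z' <+ a ++ b ∧
        z.length ≤ z'.length + 1 := fun a b c h => by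
      obtain ⟨z1, z2, rfl, e1, e2⟩ := sublist_append_iff.1 h
      refine ⟨z1 ++ z2.tail, ((Sublist.refl z1).append (tail_sublist z2)).trans h1,
        e1.append e2.tail, ?_⟩
      simp only [length_append, length_tail]
      omega
    cases s with
    | ins a b c => exact ⟨z, h1, h2.trans ((Sublist.refl a).append (sublist_cons_self c b)), by omega⟩
    | del a b c =>
      obtain ⟨z', a1, a2, a3⟩ := key a b c h2
      exact ⟨z', a1, a2, by omega⟩
    | sub a b c d =>
      obtain ⟨z', a1, a2, a3⟩ := key a b c h2
      exact ⟨z', a1, a2.trans ((Sublist.refl a).append (sublist_cons_self d b)), by omega⟩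

/-- `X` is far from every factor of every concatenation of words from `S` -/
def Far (X : List α) (S : Set (List α)) (γ : ℕ) : Prop :=
  ∀ Ys : List (List α), (∀ Y ∈ Ys, Y ∈ S) → ∀ I, I <:+: Ys.flatten → ∀ z, z <+ X → z <+ I →
    γ + 2 * z.length ≤ X.length + I.length

lemma far_flatMap (l : List β) (f : β → List α) {S : Set (List α)} {γ : ℕ}
    (h : ∀ a ∈ l, Far (f a) S γ) : Far (l.flatMap f) S (l.length * γ) := by
  intro Ys hY
  induction l with
  | nil => intro I _ z hz _; simp_all
  | cons a l ih =>
    intro I hI z hz hz'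
    obtain ⟨z1, z2, rfl, e1, e2⟩ := sublist_append_iff.1 (flatMap_cons ▸ hz)
    obtain ⟨I1, I2, rfl, e3, e4⟩ := append_sublist_iff.1 hz'
    have a1 := h a mem_cons_self Ys hY I1 ((prefix_append _ _).isInfix.trans hI) z1 e1 e3
    have a2 := ih (fun b hb => h b (mem_cons_of_mem _ hb)) I2
      ((suffix_append _ _).isInfix.trans hI) z2 e2 e4
    simp only [length_append, flatMap_cons, length_cons, add_mul, one_mul]
    omega

lemma Far.flat {X : List α} {S S' : Set (List α)} {γ : ℕ} (h : Far X S γ)
    (hS : ∀ Y ∈ S', ∃ Zs : List (List α), (∀ Z ∈ Zs, Z ∈ S) ∧ Y = Zs.flatten) : Far X S' γ := by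
  intro Ys hY I hI
  obtain ⟨Zs, h1, h2⟩ : ∃ Zs : List (List α), (∀ Z ∈ Zs, Z ∈ S) ∧ Ys.flatten = Zs.flatten := by
    clear hI
    induction Ys with
    | nil => exact ⟨[], by simp, rfl⟩
    | cons Y Ys ih =>
      obtain ⟨Zs, h1, h2⟩ := ih fun Y hY' => hY Y (mem_cons_of_mem _ hY')
      obtain ⟨Ws, h3, h4⟩ := hS Y (hY Y mem_cons_self)
      exact ⟨Ws ++ Zs, fun Z hZ => (mem_append.1 hZ).elim (h3 Z) (h1 Z), by simp [h2, h4]⟩
  exact h Zs h1 I (h2 ▸ hI)

lemma touch {n : ℕ} (Ys : List (List α)) (hn : ∀ Y ∈ Ys, Y.length = n) {I : List α}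
    (hI : I <:+: Ys.flatten) (hl : I.length ≤ 2 * n) :
    ∃ Zs : List (List α), Zs.length ≤ 3 ∧ (∀ Z ∈ Zs, Z ∈ Ys) ∧ I <:+: Zs.flatten := by
  induction Ys with
  | nil => exact ⟨[], by simp, by simp, hI⟩
  | cons Y Ys ih =>
    rcases infix_append_iff.1 (flatten_cons ▸ hI) with h | h | ⟨s, p, rfl, hs, hp⟩
    · exact ⟨[Y], by simp, by simp, by simpa using h⟩
    · obtain ⟨Zs, a1, a2, a3⟩ := ih (fun Z hZ => hn Z (mem_cons_of_mem _ hZ)) h
      exact ⟨Zs, a1, fun Z hZ => mem_cons_of_mem _ (a2 Z hZ), a3⟩
    · refine ⟨Y :: Ys.take 2, by simp, fun Z hZ => ?_, ?_⟩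
      · exact (mem_cons.1 hZ).elim (fun h => h ▸ mem_cons_self)
          fun h => mem_cons_of_mem _ (mem_of_mem_take h)
      · have hp' : p <+: (Ys.take 2).flatten := by
          have e : (Ys.take 2).flatten <+: Ys.flatten := by
            conv_rhs => rw [← take_append_drop 2 Ys, flatten_append]
            exact prefix_append _ _
          match Ys, hn, hp, e with
          | [], _, hp, _ => simpa using hp
          | [_], _, hp, _ => simpa using hp
          | A :: B :: Ys, hn, hp, e =>
            refine prefix_of_prefix_length_le hp e ?_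
            have := hn A (by simp)
            have := hn B (by simp)
            simp only [length_append] at hl
            simp
            omega
        obtain ⟨u, rfl⟩ := hs
        obtain ⟨v, hv⟩ := hp'
        exact ⟨u, v, by simp [← hv]⟩

/-- the symbols carrying tag `i` -/
def proj {ι : Type} [DecidableEq ι] (i : ι) (W : List (ι × α)) : List α :=
  W.filterMap fun x => if x.1 = i then some x.2 else none

lemma proj_len {ι : Type} [DecidableEq ι] [Fintype ι] (W : List (ι × α)) :
    ∑ i, (proj i W).length = W.length := by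
  induction W with
  | nil => simp [proj]
  | cons x W ih =>
    have : ∀ i, (proj i (x :: W)).length = (proj i W).length + if x.1 = i then 1 else 0 :=
      fun i => by unfold proj; split_ifs with h <;> simp [h]
    simp [this, Finset.sum_add_distrib, ih]

/-- concatenation of tagged blocks -/
def letter {b : ℕ} (B : Fin b → List α) : List (Fin b × α) :=
  (finRange b).flatMap fun i => (B i).map (Prod.mk i)

lemma proj_letter {b : ℕ} (B : Fin b → List α) (i : Fin b) : proj i (letter B) = B i := by
  have h : ∀ j, proj i ((B j).map (Prod.mk j)) = if j = i then B i else [] := fun j => by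
    unfold proj
    split_ifs with h
    · simp [h, filterMap_map]
    · simp [h, filterMap_map]
  have : ∀ l : List (Fin b), l.Nodup →
      proj i (l.flatMap fun j => (B j).map (Prod.mk j)) = if i ∈ l then B i else [] := by
    intro l hl
    induction l with
    | nil => simp [proj]
    | cons j l ih =>
      rw [flatMap_cons, proj, filterMap_append, ← proj, ← proj, h, ih (nodup_cons.1 hl).2]
      by_cases hj : j = i
      · subst hj; simp [(nodup_cons.1 hl).1]
      · simp [hj, Ne.symm hj]
  simpa [letter] using this _ (nodup_finRange b)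

lemma letter_len {b n : ℕ} (B : Fin b → List α) (hB : ∀ i, (B i).length = n) :
    (letter B).length = b * n := by
  simp [← proj_len, proj_letter, hB]

lemma far_letter {b n t γ : ℕ} (B : Fin b → List α) (hB : ∀ i, (B i).length = n)
    (S : Fin b → Set (List α)) (hS : ∀ i, Far (B i) (S i) γ) (hγ : γ ≤ n) :
    Far (letter B) {Y | ∃ C : Fin b → List α, Y = letter C ∧ (∀ i, (C i).length = n) ∧
      ∃ s : Finset (Fin b), s.card ≤ t ∧ ∀ i ∉ s, C i ∈ S i} ((b - 3 * t) * γ) := by
  classical
  intro Ys hY I hI z hz hz'
  have hlen := letter_len B hB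
  have h0 : (b - 3 * t) * γ ≤ b * n := Nat.mul_le_mul (Nat.sub_le _ _) hγ
  by_cases hl : I.length ≤ 2 * (b * n)
  swap
  · have := hz.length_le
    omega
  obtain ⟨Zs, a1, a2, a3⟩ := touch Ys (fun Y hY' => by
    obtain ⟨C, rfl, h1, -⟩ := hY Y hY'
    exact letter_len C h1) hI hl
  obtain ⟨s, hs, hs'⟩ : ∃ s : Finset (Fin b), s.card ≤ Zs.length * t ∧
      ∀ i ∉ s, ∀ Z ∈ Zs, proj i Z ∈ S i := by
    clear a1 a3
    induction Zs with
    | nil => exact ⟨∅, by simp, by simp⟩
    | cons Z Zs ih =>
      obtain ⟨s, h1, h2⟩ := ih fun Z hZ => a2 Z (mem_cons_of_mem _ hZ)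
      obtain ⟨C, rfl, -, s', h3, h4⟩ := hY Z (a2 Z mem_cons_self)
      refine ⟨s ∪ s', (Finset.card_union_le _ _).trans (by simp [add_mul]; omega), ?_⟩
      intro i hi Z hZ
      rw [Finset.mem_union, not_or] at hi
      rcases mem_cons.1 hZ with rfl | hZ
      · rw [proj_letter]; exact h4 i hi.2
      · exact h2 i hi.1 Z hZ
  have key : ∀ i, (if i ∈ s then 0 else γ) + 2 * (proj i z).length
      ≤ (proj i (letter B)).length + (proj i I).length := fun i => by
    have b1 : proj i z <+ proj i (letter B) := hz.filterMap _
    have b2 : proj i z <+ proj i I := hz'.filterMap _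
    split_ifs with hi
    · have := b1.length_le
      have := b2.length_le
      omega
    · rw [proj_letter] at b1 ⊢
      refine hS i (Zs.map (proj i)) (by simpa using hs' i hi) _ ?_ _ b1 b2
      have := a3.filterMap fun x => if x.1 = i then some x.2 else none
      rwa [filterMap_flatten] at this
  have := Finset.sum_le_sum fun i (_ : i ∈ Finset.univ) => key i
  simp only [Finset.sum_add_distrib, ← Finset.mul_sum, proj_len] at this
  refine le_trans (add_le_add_left ?_ _) this
  rw [Finset.sum_ite, Finset.sum_const_zero, zero_add, Finset.sum_const, smul_eq_mul]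
  refine Nat.mul_le_mul_right _ ?_
  rw [Finset.filter_notMem_eq_sdiff, Finset.card_univ_sdiff, Fintype.card_fin]
  have := Nat.mul_le_mul_right t a1
  omega

/-- a self-synchronizing binary code -/
def code (l : List Bool) : List Bool := true :: true :: (l.flatMap (fun c => [false, c]) ++ [false])

lemma code_len (l : List Bool) : (code l).length = 2 * l.length + 3 := by
  induction l with
  | nil => rfl
  | cons c l ih => simp only [code, length_cons, flatMap_cons, length_append] at ih ⊢; simp; omega

lemma code_inj {l l' : List Bool} (h : code l = code l') : l = l' := by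
  simp only [code, cons.injEq, true_and, append_cancel_right_eq] at h
  induction l generalizing l' with
  | nil => cases l' <;> simp_all
  | cons c l ih =>
    cases l' with
    | nil => simp at h
    | cons c' l' =>
      simp only [flatMap_cons, cons_append, nil_append, cons.injEq, true_and] at h
      rw [h.1, ih h.2]

lemma code_sync (l : List Bool) (c : Bool) {s : List Bool}
    (hs : s <:+ c :: (l.flatMap (fun c => [false, c]) ++ [false])) (h0 : s ≠ []) (t u : List Bool) :
    s ++ t ≠ true :: true :: u := by
  induction l generalizing c with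
  | nil =>
    simp only [flatMap_nil, nil_append, suffix_cons_iff, suffix_nil, h0, or_false] at hs
    rcases hs with rfl | rfl <;> simp
  | cons d l ih =>
    simp only [flatMap_cons, cons_append, nil_append] at hs
    rcases suffix_cons_iff.1 hs with rfl | hs
    · simp
    rcases suffix_cons_iff.1 hs with rfl | hs
    · simp
    exact ih d hs

lemma sync (c : α → List Bool) (hc : Function.Injective c) {l : ℕ} (hl : ∀ a, (c a).length = l)
    (r : ℕ) (y : List α) (a : α) (I : List Bool)
    (h : code (c a) ++ I <:+ y.flatMap (fun a => code (c a)) ++ replicate r false) :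
    ∃ y', a :: y' <:+ y ∧ I = y'.flatMap (fun a => code (c a)) ++ replicate r false := by
  induction y with
  | nil =>
    have := eq_of_mem_replicate (h.subset (show true ∈ code (c a) ++ I by simp [code]))
    simp at this
  | cons d y ih =>
    rw [flatMap_cons, append_assoc] at h
    obtain ⟨t, ht⟩ := h
    rcases (append_eq_append_iff.1 ht).imp (fun ⟨s, e2, e1⟩ => (⟨s, e1, ⟨t, e2.symm⟩⟩ :
      ∃ s, code (c a) ++ I = s ++ _ ∧ s <:+ code (c d))) fun ⟨s, _, e⟩ => (⟨s, e.symm⟩ :
        code (c a) ++ I <:+ _) with ⟨s, e1, e2⟩ | h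
    · by_cases h0 : s = []
      · subst h0
        obtain ⟨y', a1, a2⟩ := ih (by rw [e1]; exact suffix_rfl)
        exact ⟨y', a1.trans (suffix_cons d y), a2⟩
      rcases suffix_cons_iff.1 e2 with rfl | e2
      · obtain ⟨b1, b2⟩ := append_inj e1 (by rw [← code, code_len, code_len, hl, hl])
        exact ⟨y, by rw [hc (code_inj b1)], b2⟩
      · exact absurd e1.symm (code_sync _ _ e2 h0 _ _)
    · obtain ⟨y', a1, a2⟩ := ih h
      exact ⟨y', a1.trans (suffix_cons d y), a2⟩

lemma decode (c : α → List Bool) (hc : Function.Injective c) {l : ℕ} (hl : ∀ a, (c a).length = l)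
    (r : ℕ) (x : List α) : ∀ (y : List α) (I z : List Bool),
    I <:+ y.flatMap (fun a => code (c a)) ++ replicate r false →
    z <+ x.flatMap (fun a => code (c a)) ++ replicate r false → z <+ I →
    ∃ w, w <+ x ∧ w <+ y ∧ x.length + 2 * z.length
      ≤ w.length + (x.flatMap (fun a => code (c a)) ++ replicate r false).length + I.length := by
  induction x with
  | nil =>
    intro y I z _ h1 h2
    have := h1.length_le
    have := h2.length_le
    exact ⟨[], by simp, by simp, by simp only [length_nil]; omega⟩
  | cons a x ih =>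
    intro y I z hI h1 h2
    rw [flatMap_cons, append_assoc] at h1 ⊢
    obtain ⟨z1, z2, rfl, e1, e2⟩ := sublist_append_iff.1 h1
    obtain ⟨I1, I2, rfl, e3, e4⟩ := append_sublist_iff.1 h2
    have l1 := e1.length_le
    have l2 := e3.length_le
    by_cases h : 2 * z1.length = (code (c a)).length + I1.length
    · have b1 := e1.eq_of_length (by omega)
      have b2 := e3.eq_of_length (by omega)
      subst b2
      subst b1
      obtain ⟨y', a1, rfl⟩ := sync c hc hl r y a I2 hI
      obtain ⟨w, a2, a3, a4⟩ := ih y' _ z2 suffix_rfl e2 e4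
      refine ⟨a :: w, a2.cons_cons a, (a3.cons_cons a).trans a1.sublist, ?_⟩
      simp only [length_append, length_cons] at a4 ⊢
      omega
    · obtain ⟨w, a2, a3, a4⟩ := ih y I2 z2 ((suffix_append _ _).trans hI) e2 e4
      refine ⟨w, a2.cons a, a3, ?_⟩
      simp only [length_append, length_cons] at a4 ⊢
      omega

end Vale.Agent.P238
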