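import Vale.Agent.P238.Tower

/-! The distortion bound. -/

open Finset

namespace Vale.Agent.P238

lemma obj_all {k m w N : ℕ} {q : ℕ → Fin (24 * k) → ℕ} (h : Par k m w N q) (hk : 2 ≤ k) (l : ℕ) :
    ∃ C : ℝ, 0 < C ∧ C ≤ 2 * (2 * w / m) + (1 / k) ^ l ∧ Obj k m N q l C := by
  have hε : (0 : ℝ) ≤ 2 * w / m := by positivity
  have hk' : (2 : ℝ) ≤ k := by exact_mod_cast hk
  induction l with
  | zero => exact ⟨1, one_pos, by simpa using hε, obj_zero h⟩
  | succ l ih =>
    obtain ⟨C, h0, h1, h2⟩ := ih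
    refine ⟨_, by positivity, ?_, obj_succ h h2⟩
    have a1 := div_le_div_of_nonneg_right h1 (by linarith : (0 : ℝ) ≤ k)
    have a2 : 2 * (2 * (w : ℝ) / m) / k ≤ 2 * w / m := by
      rw [div_le_iff₀ (by linarith)]; nlinarith
    rw [add_div] at a1
    rw [pow_succ, mul_one_div]
    linarith

lemma distortion {k m N : ℕ} {q : ℕ → Fin (24 * k) → ℕ} {l s n : ℕ} {C : ℝ} (hC : 0 < C)
    (hk : 0 < k) (hm : 0 < m) (hq : ∀ j, 1 < q l j) (h : Obj k m N q l C)
    (hs : N * (24 * k) ^ l ≤ 2 ^ s) (hn : (m * (24 * k)) ^ l * (2 * s + 3) ≤ n) :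
    (1 / 2) ^ l / (32 * (2 * s + 3) * C)
      ≤ c1 (Fin n → Bool) fun x y => ED (List.ofFn x) (List.ofFn y) := by
  classical
  obtain ⟨G, _, _, e, A, _, Φ, I, _, wt, mv, hA, -, hlen, hwt, hchr, hcost, hfar⟩ := h
  refine le_csInf ⟨_, fun u => lp.single 1 0 ((Fintype.equivFin _ u : ℕ) : ℝ), fun u v huv => ?_,
    rfl⟩ ?_
  · have := congrArg (fun f : lp (fun _ : ℕ => ℝ) 1 => f 0) huv
    simpa [Fin.val_inj] using this
  rintro _ ⟨f, hf, rfl⟩
  have hρ : ∀ u v : Fin n → Bool, u ≠ v → (0 : ℝ) < ED (List.ofFn u) (List.ofFn v) :=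
    fun u v huv => Nat.cast_pos.2 (Nat.pos_of_ne_zero fun h0 => huv (List.ofFn_injective
      (eq_of_ed h0)))
  have hL0 := Real.iSup_nonneg fun p : {p : (Fin n → Bool) × (Fin n → Bool) // p.1 ≠ p.2} =>
    div_nonneg (norm_nonneg (f p.1.1 - f p.1.2)) (hρ _ _ p.2).le
  have hK0 := Real.iSup_nonneg fun p : {p : (Fin n → Bool) × (Fin n → Bool) // p.1 ≠ p.2} =>
    div_nonneg (hρ _ _ p.2).le (norm_nonneg (f p.1.1 - f p.1.2))
  have hL := fun u v huv => (div_le_iff₀ (hρ u v huv)).1 (le_ciSup (Set.finite_range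
    fun p : {p : (Fin n → Bool) × (Fin n → Bool) // p.1 ≠ p.2} => ‖f p.1.1 - f p.1.2‖
      / ED (List.ofFn p.1.1) (List.ofFn p.1.2)).bddAbove ⟨(u, v), huv⟩)
  have hK := fun u v (huv : u ≠ v) => (div_le_iff₀ (norm_pos_iff.2 (sub_ne_zero.2 (hf.ne huv)))).1
    (le_ciSup (Set.finite_range fun p : {p : (Fin n → Bool) × (Fin n → Bool) // p.1 ≠ p.2} =>
      ED (List.ofFn p.1.1) (List.ofFn p.1.2) / ‖f p.1.1 - f p.1.2‖).bddAbove ⟨(u, v), huv⟩)
  generalize ⨆ p : {p : (Fin n → Bool) × (Fin n → Bool) // p.1 ≠ p.2}, ‖f p.1.1 - f p.1.2‖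
      / ED (List.ofFn p.1.1) (List.ofFn p.1.2) = L at hL0 hL
  generalize ⨆ p : {p : (Fin n → Bool) × (Fin n → Bool) // p.1 ≠ p.2},
      ED (List.ofFn p.1.1) (List.ofFn p.1.2) / ‖f p.1.1 - f p.1.2‖ = K at hK0 hK
  obtain ⟨c⟩ := Function.Embedding.nonempty_of_card_le (α := A) (β := Fin s → Bool)
    (by simpa using hA.trans hs)
  have hc : Function.Injective fun a => List.ofFn (c a) := List.ofFn_injective.comp c.injective
  obtain ⟨r, rfl⟩ := Nat.exists_eq_add_of_le hn
  have hl : ∀ x, ((Φ x).flatMap (fun a => code (List.ofFn (c a))) ++ List.replicate r false).length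
      = (m * (24 * k)) ^ l * (2 * s + 3) + r := fun x => by
    simp [List.length_flatMap, code_len, hlen]
  choose str hstr using fun x => (⟨fun i => _, (List.ofFn_congr (hl x) _).symm.trans
    (List.ofFn_get _)⟩ : ∃ u : Fin ((m * (24 * k)) ^ l * (2 * s + 3) + r) → Bool, List.ofFn u
      = (Φ x).flatMap (fun a => code (List.ofFn (c a))) ++ List.replicate r false)
  let j : Fin (24 * k) := ⟨0, by omega⟩
  have key := poin_lp (fun i : Option I => i.elim (-(1 / 4)) wt)
    (fun i => i.elim ((N / q l j) • e) mv) (fun χ => by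
      simp only [Fintype.sum_option, Option.elim]
      by_cases h1 : χ ((N / q l j) • e) = 1
      · simpa [h1] using Finset.sum_nonneg fun i _ => mul_nonneg (hwt i) (re_le_one χ _).1
      · linarith [hchr χ j h1, (re_le_one χ ((N / q l j) • e)).2]) fun x => f (str x)
  simp only [Fintype.sum_option, Option.elim] at key
  have up : ∑ i, wt i * ∑ x, ‖f (str x) - f (str (x + mv i))‖
      ≤ Fintype.card G * (L * (2 * (2 * s + 3)) * (C * (m * (24 * k) : ℕ) ^ l)) := by
    have a1 : ∀ x y, ‖f (str x) - f (str y)‖ ≤ L * (2 * (2 * s + 3)) * ED (Φ x) (Φ y) := by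
      intro x y
      by_cases hxy : str x = str y
      · rw [hxy, sub_self, norm_zero]; positivity
      · refine (hL _ _ hxy).trans ?_
        rw [mul_assoc, hstr, hstr]
        refine mul_le_mul_of_nonneg_left ?_ hL0
        have := (ed_append _ _ _ _).trans (add_le_add (ed_code (fun a => code (List.ofFn (c a)))
          (l := 2 * s + 3) (fun a => by simp [code_len]) (Φ x) (Φ y))
          (ed_self (List.replicate r false)).le)
        exact_mod_cast this
    simp only [Finset.mul_sum]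
    rw [Finset.sum_comm, ← nsmul_eq_mul, ← card_univ, ← sum_const]
    refine Finset.sum_le_sum fun x _ => (Finset.sum_le_sum fun i _ =>
      mul_le_mul_of_nonneg_left (a1 _ _) (hwt i)).trans ?_
    simp only [mul_left_comm (wt _), ← Finset.mul_sum]
    exact mul_le_mul_of_nonneg_left (hcost x) (by positivity)
  have low : ∀ x, ((m * (12 * k) : ℕ) : ℝ) ^ l ≤ 4 * K * ‖f (str x) - f (str (x + (N / q l j) • e))‖ := by
    intro x
    obtain ⟨z, a1, a2, a3⟩ := (steps_ed (List.ofFn (str x))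
      (List.ofFn (str (x + (N / q l j) • e)))).common
    have a4 : (m * (12 * k)) ^ l ≤ 4 * ED (List.ofFn (str x))
        (List.ofFn (str (x + (N / q l j) • e))) := by
      generalize ED _ _ = d at a3
      rw [hstr] at a1 a2 a3
      obtain ⟨v, b1, b2, b3⟩ := decode _ hc (l := s) (by simp) r (Φ x) _ _ z List.suffix_rfl a1 a2
      have b4 := hfar j x [Φ (x + (N / q l j) • e)] (by
        have := hq j
        simp only [List.mem_singleton, forall_eq]
        exact ⟨1, fun h => by have := Int.le_of_dvd one_pos h; omega, by simp⟩) _ (by simp) v b1 b2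
      simp only [hl, hlen] at a3 b3 b4
      omega
    have a5 : 0 < (m * (12 * k)) ^ l := by positivity
    have a6 := hK (str x) (str (x + (N / q l j) • e)) fun h => by
      rw [h, ed_self] at a4; omega
    rw [mul_assoc]
    exact le_trans (by exact_mod_cast a4) (mul_le_mul_of_nonneg_left a6 (by norm_num))
  have a7 := Finset.sum_le_sum fun x (_ : x ∈ univ) => low x
  rw [sum_const, card_univ, nsmul_eq_mul, ← Finset.mul_sum] at a7
  have hG : (0 : ℝ) < Fintype.card G := by exact_mod_cast Fintype.card_pos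
  have a8 := a7.trans (mul_le_mul_of_nonneg_left (by linarith : _ ≤ 4 * (Fintype.card G
    * (L * (2 * (2 * s + 3)) * (C * (m * (24 * k) : ℕ) ^ l)))) (by positivity))
  have a9 : ((m * (12 * k) : ℕ) : ℝ) ^ l = (1 / 2) ^ l * (m * (24 * k) : ℕ) ^ l := by
    rw [← mul_pow]; congr 1; push_cast; ring
  have a10 : (0 : ℝ) < Fintype.card G * (m * (24 * k) : ℕ) ^ l := by positivity
  rw [div_le_iff₀ (by positivity)]
  refine le_of_mul_le_mul_left ?_ a10
  rw [a9] at a8
  linarith

lemma primes {T : ℕ} (hT : 40000 ≤ T) :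
    ∃ f : Bool × Fin T ↪ ℕ, ∀ x, (f x).Prime ∧ T ^ 24 < f x ∧ f x ≤ T ^ 25 := by
  have h1 : T ^ 24 + 1 + 2 * T ≤ Nat.primeCounting (T ^ 25) := by
    have hT' : (40000 : ℝ) ≤ T := by exact_mod_cast hT
    refine Nat.cast_le.1 (le_trans ?_ (Chebyshev.pi_ge (T ^ 25)))
    have hl : 0 < Real.log T := Real.log_pos (by linarith)
    have hs : 200 ≤ √(T : ℝ) := Real.le_sqrt_of_sq_le (by linarith)
    have hs2 : √(T : ℝ) * √(T : ℝ) = T := Real.mul_self_sqrt (by linarith)
    have a1 : Real.log T ≤ 2 * √(T : ℝ) := by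
      have := Real.log_le_sub_one_of_pos (by linarith : 0 < √(T : ℝ))
      rw [Real.log_sqrt (by linarith)] at this
      linarith
    have a0 : (3 * T : ℝ) ≤ T ^ 24 := by
      have : (T : ℝ) ^ 2 ≤ T ^ 24 := pow_le_pow_right₀ (by linarith) (by norm_num)
      nlinarith
    have a2 : Real.log (T ^ 25 + 1) ≤ 26 * Real.log T := by
      refine (Real.log_le_log (by positivity) (?_ : _ ≤ (T : ℝ) ^ 26)).trans (by simp)
      have : (1 : ℝ) ≤ T ^ 25 := one_le_pow₀ (by linarith)
      rw [pow_succ _ 25]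
      nlinarith
    push_cast
    rw [Real.log_pow, le_div_iff₀ (by positivity), pow_succ _ 24] 
    rw [pow_succ _ 24] at a2
    generalize (T : ℝ) ^ 24 = P at a0 a2 ⊢
    have a3 : 138 * √(T : ℝ) ≤ T * Real.log 2 := by nlinarith [Real.log_two_gt_d9]
    have a4 := mul_le_mul_of_nonneg_left a3 (by linarith : 0 ≤ P)
    have a5 := mul_le_mul (by linarith : P + 1 + 2 * T ≤ 2 * P) a1 hl.le (by linarith)
    push_cast
    nlinarith
  obtain ⟨f, hf⟩ := Function.Embedding.exists_of_card_le_finset (α := Bool × Fin T)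
    (s := Nat.primesLE (T ^ 25) \ range (T ^ 24 + 1)) (by
      have := Finset.le_card_sdiff (range (T ^ 24 + 1)) (Nat.primesLE (T ^ 25))
      rw [Nat.primesLE_card_eq_primeCounting, card_range] at this
      simp only [Fintype.card_prod, Fintype.card_bool, Fintype.card_fin]
      omega)
  refine ⟨f, fun x => ?_⟩
  have := hf ⟨x, rfl⟩
  simp only [coe_sdiff, Set.mem_sdiff, mem_coe, Nat.mem_primesLE, mem_range, not_lt] at this
  exact ⟨this.1.2, this.2, this.1.1⟩

lemma few {ι : Type} [Fintype ι] {q : ι → ℕ} (hq : Function.Injective q) {P t : ℕ} (hP : 1 < P)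
    (h : ∀ i, (q i).Prime ∧ P < q i) {e : ℤ} (he : e ≠ 0) (h1 : |e| < (P ^ (t + 1) : ℕ)) :
    (univ.filter fun j => (q j : ℤ) ∣ e).card ≤ t := by
  have a1 : ∏ j ∈ univ.filter fun j => (q j : ℤ) ∣ e, (q j : ℤ) ∣ e :=
    Finset.prod_dvd_of_coprime (fun i _ j _ hij => Nat.isCoprime_iff_coprime.2
      ((Nat.coprime_primes (h i).1 (h j).1).2 (hq.ne hij))) fun i hi => (mem_filter.1 hi).2
  have a2 := (Int.le_of_dvd (abs_pos.2 he) ((dvd_abs _ _).2 a1)).trans_lt h1
  rw [← Nat.cast_prod, Nat.cast_lt] at a2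
  have a3 := (Finset.pow_card_le_prod _ _ P fun i _ => (h i).2.le).trans_lt a2
  exact Nat.lt_succ_iff.1 ((Nat.pow_lt_pow_iff_right hP).1 a3)

lemma bound {k n : ℕ} (hk : 4096 ≤ k) (hn : (24 * k) ^ (73 * k ^ 2) ≤ n) :
    Real.exp (k * Real.log k / 2)
      ≤ c1 (Fin n → Bool) fun x y => ED (List.ofFn x) (List.ofFn y) := by
  set T := 24 * k with hT
  obtain ⟨f, hf⟩ := primes (T := T) (by omega)
  have hT1 : 1 ≤ T := by omega
  have hP : 2 * T < T ^ 24 := by
    have : T ^ 2 ≤ T ^ 24 := Nat.pow_le_pow_right hT1 (by norm_num)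
    nlinarith
  have inj : ∀ l : ℕ, Function.Injective fun i => f (decide (Even l), i) :=
    fun l i j h => (Prod.ext_iff.1 (f.injective h)).2
  have hM : ∀ b, ∏ i, f (b, i) ≤ (T ^ 24) ^ (25 * k) := fun b => by
    refine (Finset.prod_le_pow_card _ _ _ fun i _ => (hf (b, i)).2.2).trans (le_of_eq ?_)
    rw [card_univ, Fintype.card_fin, ← pow_mul, ← pow_mul]
    congr 1; omega
  have hPk : T ^ 24 ≤ (T ^ 24) ^ k := Nat.le_self_pow (by omega) _
  have par : Par k ((T ^ 24) ^ (3 * k)) ((T ^ 24) ^ (2 * k)) ((∏ i, f (true, i)) * ∏ i, f (false, i))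
      fun l i => f (decide (Even l), i) := by
    refine ⟨by omega, by positivity, by positivity, fun l i => (hf _).1.pos, fun l => ?_,
      fun l i => Nat.Coprime.prod_right fun j _ => (Nat.coprime_primes (hf _).1 (hf _).1).2
        (f.injective.ne (by by_cases h : Even l <;> simp [h, Nat.even_add_one])), fun l i e he h1 => few (inj l) (P := T ^ 24)
        (by omega) (fun i => ⟨(hf _).1, (hf _).2.1⟩) he (h1.trans_lt ?_),
      fun l a ha h1 => few (inj l) (P := T ^ 24) (by omega) (fun i => ⟨(hf _).1, (hf _).2.1⟩) ha ?_⟩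
    · by_cases h : Even l <;> simp [h, Nat.even_add_one, mul_comm] <;> rfl
    · have a1 := (hf (decide (Even (l + 1)), i)).2.2
      have a2 : 0 < (T ^ 24) ^ (3 * k) := by positivity
      norm_cast
      rw [pow_succ T 24] at a1
      rw [show 4 * k + 1 = 1 + k + 3 * k by ring, pow_add, pow_add, pow_one]
      refine (Nat.mul_le_mul a1 (by omega : _ ≤ 2 * (T ^ 24) ^ (3 * k))).trans_lt ?_
      rw [← mul_assoc, mul_assoc _ T]
      exact Nat.mul_lt_mul_of_pos_right (Nat.mul_lt_mul_of_pos_left (by omega) (by omega)) a2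
    · have a1 := h1.trans_le (Nat.cast_le.2 (hM _))
      rw [show 25 * k = 23 * k + 2 * k by ring, pow_add, Nat.cast_mul] at a1
      exact (lt_of_mul_lt_mul_right a1 (by positivity)).trans_le
        (Nat.cast_le.2 (Nat.pow_le_pow_right (by omega) (by omega)))
  obtain ⟨C, c0, c1, c2⟩ := obj_all par (by omega) k
  have hs : 2 * (1201 * k * T) + 3 ≤ T ^ 3 := by
    have : 4096 * (k * k) ≤ k * (k * k) := Nat.mul_le_mul_right _ hk
    rw [hT]; nlinarith
  refine le_trans ?_ (distortion (s := 1201 * k * T) c0 (by omega) (by positivity)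
    (fun j => (hf _).1.one_lt) c2 ?_ (le_trans ?_ hn))
  · have hk' : (4096 : ℝ) ≤ k := by exact_mod_cast hk
    have hk0 : (0 : ℝ) < k := by linarith
    have a1 : C ≤ 3 * (1 / k) ^ k := by
      have b1 : 2 * k ^ k ≤ (T ^ 24) ^ k := by
        refine le_trans ?_ (Nat.pow_le_pow_left (by omega : 2 * k ≤ T ^ 24) k)
        rw [mul_pow]
        exact Nat.mul_le_mul_right _ (Nat.le_self_pow (by omega) _)
      have b2 : (2 : ℝ) * ((T ^ 24) ^ (2 * k) : ℕ) / ((T ^ 24) ^ (3 * k) : ℕ) ≤ (1 / k) ^ k := by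
        rw [one_div_pow, div_le_div_iff₀ (by positivity) (by positivity), one_mul,
          show 3 * k = k + 2 * k by ring, pow_add, mul_right_comm]
        exact_mod_cast Nat.mul_le_mul_right _ b1
      linarith
    have a2 : (96 : ℝ) * (2 * (1201 * k * T : ℕ) + 3) ≤ 32 ^ k := by
      have b1 : k ^ 5 ≤ 32 ^ k := by
        rw [show 32 = 2 ^ 5 by norm_num, ← pow_mul, mul_comm, pow_mul]
        exact Nat.pow_le_pow_left Nat.lt_two_pow_self.le 5
      have b2 : 96 * T ^ 3 ≤ k ^ 5 := by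
        have := Nat.mul_le_mul_right (k ^ 3) (Nat.mul_le_mul hk hk)
        rw [hT]; nlinarith
      exact_mod_cast (Nat.mul_le_mul_left 96 hs).trans (b2.trans b1)
    have a3 : Real.exp (k * Real.log k / 2) = √(k : ℝ) ^ k := by
      rw [mul_div_assoc, Real.exp_nat_mul, ← Real.log_sqrt hk0.le, Real.exp_log (by positivity)]
    have a4 : √(k : ℝ) * 32 * (1 / k) ≤ 1 / 2 := by
      have b1 : 64 ≤ √(k : ℝ) := Real.le_sqrt_of_sq_le (by linarith)
      have b2 : √(k : ℝ) * √(k : ℝ) = k := Real.mul_self_sqrt hk0.le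
      rw [mul_one_div, div_le_iff₀ hk0]
      nlinarith
    have a5 := pow_le_pow_left₀ (by positivity) a4 k
    rw [mul_pow, mul_pow] at a5
    rw [a3, le_div_iff₀ (by positivity)]
    refine le_trans ?_ a5
    rw [mul_assoc (√(k : ℝ) ^ k)]
    refine mul_le_mul_of_nonneg_left ((mul_le_mul_of_nonneg_left a1 (by positivity)).trans ?_)
      (by positivity)
    have := mul_le_mul_of_nonneg_right a2 (by positivity : (0 : ℝ) ≤ (1 / k) ^ k)
    linarith
  · refine (Nat.mul_le_mul_right _ (Nat.mul_le_mul (hM true) (hM false))).trans ?_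
    rw [← pow_mul, ← pow_add, ← pow_add, mul_comm _ T, pow_mul 2]
    exact (Nat.pow_le_pow_right hT1 (by omega)).trans
      (Nat.pow_le_pow_left Nat.lt_two_pow_self.le _)
  · refine (Nat.mul_le_mul_left _ hs).trans ?_
    rw [← pow_mul, ← pow_succ, ← pow_mul, ← pow_add]
    exact Nat.pow_le_pow_right hT1 (by nlinarith)

end Vale.Agent.P238
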