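import Mathlib

/-! Poincaré inequalities on finite abelian groups. -/

open Finset MeasureTheory

namespace Vale.Agent.P238

section
variable {G I : Type} [AddCommGroup G] [Fintype G] [Fintype I] (wt : I → ℝ) (mv : I → G)

lemma corr (φ : G → ℝ) (u : G) : (Fintype.card G : ℝ) * ∑ x, φ x * φ (x + u)
    = ∑ χ : AddChar G ℂ, (χ u).re * Complex.normSq (∑ x, (φ x : ℂ) * χ x) := by
  classical
  have key : ∑ χ : AddChar G ℂ, χ u * (Complex.normSq (∑ x, (φ x : ℂ) * χ x) : ℂ)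
      = (((Fintype.card G : ℝ) * ∑ x, φ x * φ (x + u) : ℝ) : ℂ) := by
    have e : ∀ χ : AddChar G ℂ, χ u * (Complex.normSq (∑ x, (φ x : ℂ) * χ x) : ℂ)
        = ∑ x, ∑ y, (φ x : ℂ) * φ y * χ (x + u - y) := fun χ => by
      rw [← Complex.mul_conj, map_sum, Finset.sum_mul_sum, Finset.mul_sum]
      refine Finset.sum_congr rfl fun x _ => ?_
      rw [Finset.mul_sum]
      refine Finset.sum_congr rfl fun y _ => ?_
      rw [sub_eq_add_neg, χ.map_add_eq_mul, χ.map_add_eq_mul, AddChar.map_neg_eq_conj, map_mul,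
        Complex.conj_ofReal]
      ring
    simp only [e]
    rw [Finset.sum_comm]
    push_cast
    rw [Finset.mul_sum]
    refine Finset.sum_congr rfl fun x _ => ?_
    rw [Finset.sum_comm]
    simp only [← Finset.mul_sum, AddChar.sum_apply_eq_ite, sub_eq_zero, mul_ite, mul_zero,
      Finset.sum_ite_eq, mem_univ, if_true]
    ring
  have := congrArg Complex.re key
  rw [Complex.ofReal_re, Complex.re_sum] at this
  simpa using this.symm

lemma poin_sq (h : ∀ χ : AddChar G ℂ, 0 ≤ ∑ i, wt i * (1 - (χ (mv i)).re)) (φ : G → ℝ) :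
    0 ≤ ∑ i, wt i * ∑ x, (φ x - φ (x + mv i)) ^ 2 := by
  have hG : (0 : ℝ) < Fintype.card G := by exact_mod_cast Fintype.card_pos
  refine le_of_mul_le_mul_left ?_ hG
  have e : ∀ u, (Fintype.card G : ℝ) * ∑ x, (φ x - φ (x + u)) ^ 2
      = ∑ χ : AddChar G ℂ, (1 - (χ u).re) * (2 * Complex.normSq (∑ x, (φ x : ℂ) * χ x)) := by
    intro u
    have h0 := corr φ 0
    have h1 := corr φ u
    have h2 : ∑ x, φ (x + u) * φ (x + u) = ∑ x, φ x * φ x :=
      Equiv.sum_comp (Equiv.addRight u) fun x => φ x * φ x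
    simp only [add_zero, AddChar.map_zero_eq_one, Complex.one_re, one_mul] at h0
    have h3 : ∀ x, (φ x - φ (x + u)) ^ 2
        = φ x * φ x + φ (x + u) * φ (x + u) - 2 * (φ x * φ (x + u)) := fun x => by ring
    simp only [h3, Finset.sum_add_distrib, Finset.sum_sub_distrib,
      ← Finset.mul_sum, h2, sub_mul, one_mul, mul_left_comm _ (2 : ℝ), ← h0, ← h1]
    ring
  rw [mul_zero, Finset.mul_sum, Finset.sum_congr rfl fun i _ => by
    rw [mul_left_comm, e, Finset.mul_sum], Finset.sum_comm]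
  refine Finset.sum_nonneg fun χ _ => ?_
  simp only [← mul_assoc]
  rw [← Finset.sum_mul, ← Finset.sum_mul]
  exact mul_nonneg (mul_nonneg (h χ) zero_le_two) (Complex.normSq_nonneg _)

lemma layer (a b : ℝ) : Integrable (fun t : ℝ => ((if t < a then 1 else 0)
    - (if t < b then 1 else 0) : ℝ) ^ 2) ∧ ∫ t : ℝ, ((if t < a then 1 else 0)
    - (if t < b then 1 else 0) : ℝ) ^ 2 = |a - b| := by
  have : (fun t : ℝ => ((if t < a then 1 else 0) - (if t < b then 1 else 0) : ℝ) ^ 2)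
      = (Set.Ico (min a b) (max a b)).indicator fun _ => 1 := by
    funext t
    by_cases h1 : t < a <;> by_cases h2 : t < b <;>
      simp [Set.indicator, h1, h2, not_lt.1, not_le.2]
  rw [this]
  refine ⟨(integrable_indicator_iff measurableSet_Ico).2 (integrableOn_const (by simp)), ?_⟩
  simp [integral_indicator, max_sub_min_eq_abs, abs_sub_comm]

lemma poin_abs (h : ∀ χ : AddChar G ℂ, 0 ≤ ∑ i, wt i * (1 - (χ (mv i)).re)) (φ : G → ℝ) :
    0 ≤ ∑ i, wt i * ∑ x, |φ x - φ (x + mv i)| := by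
  simp only [← (layer _ _).2]
  simp only [← integral_finsetSum _ fun x _ => (layer (φ x) _).1, ← integral_const_mul]
  rw [← integral_finsetSum _ fun i _ =>
    (integrable_finsetSum _ fun x _ => (layer (φ x) _).1).const_mul _]
  exact integral_nonneg fun t => poin_sq wt mv h fun x => if t < φ x then 1 else 0

lemma poin_lp (h : ∀ χ : AddChar G ℂ, 0 ≤ ∑ i, wt i * (1 - (χ (mv i)).re))
    (F : G → lp (fun _ : ℕ => ℝ) 1) : 0 ≤ ∑ i, wt i * ∑ x, ‖F x - F (x + mv i)‖ := by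
  have e : ∀ f : lp (fun _ : ℕ => ℝ) 1, HasSum (fun n => |f n|) ‖f‖ := fun f => by
    simpa using lp.hasSum_norm (p := 1) (by simp) f
  refine (hasSum_sum fun i _ => (hasSum_sum fun x _ => e _).mul_left _).nonneg fun n => ?_
  exact poin_abs wt mv h fun x => F x n

end

lemma root {α : ℂ} {N W : ℕ} (hN : 0 < N) (hW : 0 < W) (h : α ^ N = 1) : ∃ a : ℤ,
    (∀ n : ℕ, α ^ n = 1 ↔ (N : ℤ) ∣ a * n) ∧
    (|a| * W < N ∨ 1 / 2 ≤ ∑ k : Fin W, 1 / (W : ℝ) * (1 - (α ^ (k : ℕ)).re)) := by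
  have : NeZero N := ⟨hN.ne'⟩
  have hζ := Complex.isPrimitiveRoot_exp N hN.ne'
  obtain ⟨i, hi, rfl⟩ := hζ.eq_pow_of_pow_eq_one h
  obtain ⟨a, ha, ha'⟩ : ∃ a : ℤ, 2 * |a| ≤ N ∧ Complex.exp (2 * Real.pi * Complex.I / N) ^ i
      = Complex.exp (2 * Real.pi * Complex.I / N) ^ a := by
    by_cases h2 : 2 * i ≤ N
    · exact ⟨i, by rw [Nat.abs_cast]; exact_mod_cast h2, (zpow_natCast _ _).symm⟩
    · refine ⟨i - N, by rw [abs_of_nonpos (by omega)]; omega, ?_⟩
      rw [zpow_sub₀ (Complex.exp_ne_zero _), zpow_natCast, zpow_natCast, hζ.pow_eq_one, div_one]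
  rw [ha']
  refine ⟨a, fun n => by rw [← zpow_natCast, ← zpow_mul, hζ.zpow_eq_one_iff_dvd], ?_⟩
  refine or_iff_not_imp_left.2 fun hn => ?_
  have hN' : (0 : ℝ) < N := by exact_mod_cast hN
  have hW' : (0 : ℝ) < W := by exact_mod_cast hW
  have h1 : (N : ℝ) ≤ |(a : ℝ)| * W := by exact_mod_cast not_lt.1 hn
  have h2 : 2 * |(a : ℝ)| ≤ N := by exact_mod_cast ha
  have e : Complex.exp (2 * Real.pi * Complex.I / N) ^ a
      = Complex.exp (Complex.I * (2 * Real.pi * a / N : ℝ)) := by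
    rw [← Complex.exp_int_mul]; congr 1; push_cast; ring
  rw [e]
  have h3 : 4 / (W : ℝ) ≤ ‖Complex.exp (Complex.I * (2 * Real.pi * a / N : ℝ)) - 1‖ := by
    have e2 : |2 * Real.pi * a / N / 2| = Real.pi * (|(a : ℝ)| / N) := by
      rw [show 2 * Real.pi * a / N / 2 = Real.pi * (a / N) by ring, abs_mul, abs_div,
        abs_of_pos Real.pi_pos, abs_of_pos hN']
    have h4 := Real.mul_abs_le_abs_sin (x := 2 * Real.pi * a / N / 2) (by
      rw [e2, div_eq_mul_one_div Real.pi]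
      exact mul_le_mul_of_nonneg_left (by rw [div_le_iff₀ hN']; linarith) Real.pi_pos.le)
    rw [e2, ← mul_assoc, div_mul_cancel₀ _ Real.pi_pos.ne'] at h4
    rw [Complex.norm_exp_I_mul_ofReal_sub_one, norm_mul, Real.norm_eq_abs, Real.norm_eq_abs, abs_two]
    have : 1 / (W : ℝ) ≤ |(a : ℝ)| / N := by rw [div_le_div_iff₀ hW' hN']; linarith
    rw [div_eq_mul_one_div]
    linarith
  have h5 : ‖Complex.exp (Complex.I * (2 * Real.pi * a / N : ℝ))‖ = 1 :=
    Complex.norm_exp_I_mul_ofReal _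
  generalize Complex.exp (Complex.I * (2 * Real.pi * a / N : ℝ)) = β at h3 h5
  have h6 : ‖∑ k ∈ range W, β ^ k‖ * ‖β - 1‖ ≤ 2 := by
    rw [← norm_mul, geom_sum_mul]
    refine (norm_sub_le _ _).trans ?_
    rw [norm_pow, h5]; norm_num
  have h7 : (∑ k ∈ range W, β ^ k).re ≤ W / 2 := by
    refine (Complex.re_le_norm _).trans ?_
    have := (mul_le_mul_of_nonneg_left h3 (norm_nonneg _)).trans h6
    rw [← mul_div_assoc, div_le_iff₀ hW'] at this
    linarith
  rw [Fin.sum_univ_eq_sum_range fun k => 1 / (W : ℝ) * (1 - (β ^ k).re), ← Finset.mul_sum,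
    Finset.sum_sub_distrib, ← Complex.re_sum, one_div_mul_eq_div, le_div_iff₀ hW']
  simp only [sum_const, card_range, nsmul_eq_mul, mul_one]
  linarith

end Vale.Agent.P238
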