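import Vale.Agent.P238.Edit
import Vale.Agent.P238.Fourier

/-! The recursive family of words. -/

open Finset

namespace Vale.Agent.P238

structure Par (k m w N : ℕ) (q : ℕ → Fin (24 * k) → ℕ) : Prop where
  kpos : 0 < k
  mpos : 0 < m
  wpos : 0 < w
  two : ∀ l i, 0 < q l i
  prod : ∀ l, N = (∏ i, q l i) * ∏ i, q (l + 1) i
  cop : ∀ l i, Nat.Coprime (q (l + 1) i) (∏ i, q l i)
  far : ∀ l i (e : ℤ), e ≠ 0 → |e| ≤ q (l + 1) i * (m + 1) →
    (univ.filter fun j => (q l j : ℤ) ∣ e).card ≤ 4 * k
  chr : ∀ l (a : ℤ), a ≠ 0 → |a| * w < (∏ i, q l i : ℕ) →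
    (univ.filter fun j => (q l j : ℤ) ∣ a).card ≤ 23 * k

def Obj (k m N : ℕ) (q : ℕ → Fin (24 * k) → ℕ) (l : ℕ) (C : ℝ) : Prop :=
  ∃ (G : Type) (_ : AddCommGroup G) (_ : Fintype G) (e : G) (A : Type) (_ : Fintype A)
    (Φ : G → List A) (I : Type) (_ : Fintype I) (wt : I → ℝ) (mv : I → G),
    Fintype.card A ≤ N * (24 * k) ^ l ∧ N • e = 0 ∧ (∀ x, (Φ x).length = (m * (24 * k)) ^ l) ∧
    (∀ i, 0 ≤ wt i) ∧
    (∀ (χ : AddChar G ℂ) j, χ ((N / q l j) • e) ≠ 1 → 1 / 2 ≤ ∑ i, wt i * (1 - (χ (mv i)).re)) ∧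
    (∀ x, ∑ i, wt i * ED (Φ x) (Φ (x + mv i)) ≤ C * (m * (24 * k) : ℕ) ^ l) ∧
    ∀ j x, Far (Φ x) {Y | ∃ c : ℤ, ¬(q l j : ℤ) ∣ c ∧ Y = Φ (x + c • ((N / q l j) • e))}
      ((m * (12 * k)) ^ l)

variable {k m w N : ℕ} {q : ℕ → Fin (24 * k) → ℕ}

lemma Par.mp (h : Par k m w N q) (l : ℕ) : 0 < ∏ i, q l i := Finset.prod_pos fun i _ => h.two l i

lemma Par.np (h : Par k m w N q) : 0 < N := h.prod 0 ▸ Nat.mul_pos (h.mp 0) (h.mp 1)

lemma Par.dvd (h : Par k m w N q) (l : ℕ) (i : Fin (24 * k)) : q l i * (N / q l i) = N :=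
  Nat.mul_div_cancel' (h.prod l ▸ (Finset.dvd_prod_of_mem _ (mem_univ i)).mul_right _)

lemma re_le_one {G : Type} [AddCommGroup G] [Fintype G] (χ : AddChar G ℂ) (x : G) :
    0 ≤ 1 - (χ x).re ∧ 1 - (χ x).re ≤ 2 := by
  have := abs_le.1 ((Complex.abs_re_le_norm (χ x)).trans_eq (χ.norm_apply x))
  constructor <;> linarith [this.1, this.2]

lemma obj_zero (h : Par k m w N q) : Obj k m N q 0 1 := by
  have : NeZero N := ⟨h.np.ne'⟩
  have hN : (0 : ℝ) < N := by exact_mod_cast h.np
  refine ⟨ZMod N, inferInstance, inferInstance, 1, ZMod N, inferInstance, fun s => [s], ZMod N,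
    inferInstance, fun _ => 1 / N, id, by simp, by simp, by simp, fun _ => by positivity,
    fun χ j hχ => ?_, fun x => ?_, fun j x => ?_⟩
  · have : ∑ u, χ u = 0 := AddChar.sum_eq_zero_iff_ne_zero.2 (by rintro rfl; simp at hχ)
    simp only [id, ← Finset.mul_sum, Finset.sum_sub_distrib, ← Complex.re_sum, this]
    simp [hN.ne']
    norm_num
  · have : ∀ u : ZMod N, (ED [x] [x + u] : ℝ) ≤ 1 := fun u => by
      exact_mod_cast ed_le ((Steps.refl _).tail (Step.sub [] [] x (x + u)))
    refine (Finset.sum_le_sum fun u _ => mul_le_mul_of_nonneg_left (this u) (by positivity)).trans ?_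
    simp [hN.ne']
  · intro Ys hY I hI z hz hz'
    rcases List.sublist_singleton.1 hz with rfl | rfl
    · simp
    · obtain ⟨Y, h1, h2⟩ := List.mem_flatten.1 (hI.subset (hz'.subset List.mem_cons_self))
      obtain ⟨c, hc, rfl⟩ := hY Y h1
      refine absurd ?_ hc
      have h3 : ((c * (N / q 0 j : ℕ) : ℤ) : ZMod N) = 0 := by
        rw [Int.cast_mul, Int.cast_natCast]
        simpa using h2
      rw [ZMod.intCast_zmod_eq_zero_iff_dvd] at h3
      nth_rewrite 1 [← h.dvd 0 j] at h3
      push_cast at h3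
      refine (mul_dvd_mul_iff_right ?_).1 h3
      have := h.dvd 0 j
      have := h.np
      norm_cast
      intro h0
      simp_all

lemma Far.mono {α : Type} {X : List α} {S S' : Set (List α)} {γ : ℕ} (h : Far X S γ)
    (hS : S' ⊆ S) : Far X S' γ := fun Ys hY => h Ys fun Y hY' => hS (hY Y hY')

lemma ed_letter {α : Type} {b : ℕ} (B C : Fin b → List α) :
    ED (letter B) (letter C) ≤ ∑ i, ED (B i) (C i) := by
  refine (ed_flatMap _ _ _).trans ?_
  rw [← List.ofFn_eq_map, List.sum_ofFn]
  exact Finset.sum_le_sum fun i _ => ed_map _ _ _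

lemma obj_succ (h : Par k m w N q) {l : ℕ} {C : ℝ} (ih : Obj k m N q l C) :
    Obj k m N q (l + 1) (2 * w / m + C / k) := by
  classical
  obtain ⟨G, _, _, e, A, _, Φ, I, _, wt, mv, hA, he, hlen, hwt, hchr, hcost, hfar⟩ := ih
  have : NeZero N := ⟨h.np.ne'⟩
  have hN := h.prod l
  have hMc := h.mp l
  have hMo := h.mp (l + 1)
  have hk := h.kpos
  have hw := h.wpos
  have hm := h.mpos
  set Mc := ∏ i, q l i with hMc'
  set Mo := ∏ i, q (l + 1) i with hMo'
  set g : Fin (24 * k) → G := fun i => (N / q l i) • e with hg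
  have g0 : ∀ i (n : ℕ), q l i ∣ n → n • g i = 0 := by
    rintro i _ ⟨n, rfl⟩
    rw [mul_comm, mul_smul, show g i = (N / q l i) • e from rfl, smul_smul (q l i), h.dvd, he,
      smul_zero]
  have g1 : ∀ i, Mc • g i = 0 := fun i => g0 i _ (Finset.dvd_prod_of_mem _ (mem_univ i))
  set L : (Fin (24 * k) → G) → ℕ → List (Fin (24 * k) × A) :=
    fun ω J => letter fun i => Φ (ω i + J • g i) with hL
  have Llen : ∀ ω J, (L ω J).length = 24 * k * (m * (24 * k)) ^ l :=
    fun ω J => letter_len _ fun i => hlen _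
  have red : ∀ (z : ℕ) ω j, L ω ((z : ZMod N).val / Mo + j) = L ω (z / Mo + j) := fun z ω j => by
    have : z / Mo = z % N / Mo + z / N * Mc := by
      conv_lhs => rw [← Nat.mod_add_div z N]
      rw [show N * (z / N) = z / N * Mc * Mo by rw [mul_assoc, ← hN, mul_comm],
        Nat.add_mul_div_right _ _ hMo]
    simp only [hL, ZMod.val_natCast, this, add_smul, mul_smul, g1, smul_zero, add_zero]
  have hb : (0 : ℝ) < (m * (24 * k) : ℕ) ^ l := by positivity
  refine ⟨ZMod N × (Fin (24 * k) → G), inferInstance, inferInstance, (1, 0), Fin (24 * k) × A,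
    inferInstance, fun x => (List.range m).flatMap fun j => L x.2 (x.1.val / Mo + j),
    Fin (w * Mo) ⊕ Fin N ⊕ Fin (24 * k) × I, inferInstance,
    Sum.elim (fun _ => 1 / (w * Mo : ℕ)) (Sum.elim (fun _ => 1 / N) fun p => wt p.2 / k),
    Sum.elim (fun t => (t : ℕ) • (1, 0)) (Sum.elim (fun t => (t : ℕ) • ((Mo : ZMod N), fun i => -g i))
      fun p => (0, Pi.single p.1 (mv p.2))), ?_, by simp, fun x => ?_, ?_, fun χ j hχ => ?_,
    fun x => ?_, fun j x => ?_⟩
  · rw [Fintype.card_prod, Fintype.card_fin, pow_succ, ← mul_assoc, mul_comm]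
    exact Nat.mul_le_mul_right _ hA
  · simp only [List.length_flatMap, Llen, List.map_const', List.length_range, List.sum_replicate,
      smul_eq_mul]
    ring
  · rintro (t | t | p)
    · exact one_div_nonneg.2 (Nat.cast_nonneg _)
    · exact one_div_nonneg.2 (Nat.cast_nonneg _)
    · exact div_nonneg (hwt _) (Nat.cast_nonneg _)
  · simp only [Fintype.sum_sum_type, Sum.elim_inl, Sum.elim_inr, χ.map_nsmul_eq_pow] at hχ ⊢
    have n1 : 0 ≤ ∑ t : Fin (w * Mo), 1 / ((w * Mo : ℕ) : ℝ) * (1 - (χ (1, 0) ^ (t : ℕ)).re) :=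
      Finset.sum_nonneg fun t _ => mul_nonneg (by positivity)
        (by rw [← χ.map_nsmul_eq_pow]; exact (re_le_one χ _).1)
    have n2 : 0 ≤ ∑ t : Fin N, 1 / (N : ℝ) * (1 - (χ (Mo, fun i => -g i) ^ (t : ℕ)).re) :=
      Finset.sum_nonneg fun t _ => mul_nonneg (by positivity)
        (by rw [← χ.map_nsmul_eq_pow]; exact (re_le_one χ _).1)
    have n3 : ∀ i, 0 ≤ ∑ t, wt t / k * (1 - (χ (0, Pi.single i (mv t))).re) := fun i =>
      Finset.sum_nonneg fun t _ => mul_nonneg (div_nonneg (hwt _) (Nat.cast_nonneg _))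
        (re_le_one χ _).1
    rw [Fintype.sum_prod_type]
    have n4 := Finset.sum_nonneg fun i (_ : i ∈ univ) => n3 i
    obtain ⟨a, a1, a2 | a2⟩ := root (α := χ (1, 0)) h.np (Nat.mul_pos hw hMo)
      (by rw [← χ.map_nsmul_eq_pow, ← χ.map_zero_eq_one]; congr 1; simp)
    swap
    · linarith
    obtain ⟨a', b1, b2 | b2⟩ := root (α := χ (Mo, fun i => -g i)) h.np h.np (by
      rw [← χ.map_nsmul_eq_pow, ← χ.map_zero_eq_one]
      congr 1
      ext i
      · simp
      · simp [g0 i N (Dvd.intro _ (h.dvd l i))])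
    swap
    · linarith
    have b3 : χ (Mo, fun i => -g i) = 1 := by
      have : a' = 0 := by
        by_contra h0
        have := Int.one_le_abs h0
        have : (0 : ℤ) < N := by exact_mod_cast h.np
        nlinarith
      simpa [this] using (b1 1).2
    have a3 := h.chr l a (by rintro rfl; exact hχ ((a1 _).2 (by simp))) (by
      have : (0 : ℤ) < Mo := by exact_mod_cast hMo
      rw [hN] at a2
      push_cast at a2 ⊢
      rw [← mul_assoc] at a2
      exact_mod_cast lt_of_mul_lt_mul_right a2 this.le)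
    have a4 : ∀ i, ¬(q l i : ℤ) ∣ a →
        1 / k * (1 / 2) ≤ ∑ t, wt t / k * (1 - (χ (0, Pi.single i (mv t))).re) := fun i hi => by
      have c1 := hchr (χ.compAddMonoidHom ((AddMonoidHom.inr _ _).comp
        (AddMonoidHom.single (fun _ => G) i))) i fun h1 => hi (by
          have h1 : χ (0, Pi.single i (g i)) = 1 := h1
          have c2 : q l i * ∏ j ∈ univ.erase i, q l j = Mc := Finset.mul_prod_erase _ _ (mem_univ i)
          have c3 : ((∏ j ∈ univ.erase i, q l j) * Mo) • ((1, 0) : ZMod N × (Fin (24 * k) → G))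
              = (∏ j ∈ univ.erase i, q l j) • ((Mo : ZMod N), fun i => -g i)
                + (∏ j ∈ univ.erase i, q l j) • (0, Pi.single i (g i)) := by
            ext j
            · simp
            · by_cases hj : j = i
              · subst hj; simp
              · simp [hj, g0 j _ (Finset.dvd_prod_of_mem _ (mem_erase.2 ⟨hj, mem_univ j⟩))]
          have c4 := congrArg χ c3
          rw [χ.map_add_eq_mul, χ.map_nsmul_eq_pow, χ.map_nsmul_eq_pow, χ.map_nsmul_eq_pow, b3, h1,
            one_pow, mul_one, a1, hN, ← c2, mul_assoc, Nat.cast_mul] at c4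
          refine (mul_dvd_mul_iff_right ?_).1 c4
          have := Finset.prod_pos fun j (_ : j ∈ univ.erase i) => h.two l j
          positivity)
      simp only [div_mul_eq_mul_div (wt _), ← Finset.sum_div]
      rw [one_div_mul_eq_div]
      exact div_le_div_of_nonneg_right c1 (Nat.cast_nonneg _)
    have a5 : k ≤ (univ.filter fun j => ¬(q l j : ℤ) ∣ a).card := by
      have := Finset.card_filter_add_card_filter_not (s := univ) fun j => (q l j : ℤ) ∣ a
      rw [card_univ, Fintype.card_fin] at this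
      omega
    have a6 := (Finset.sum_le_sum fun i hi => a4 i (mem_filter.1 hi).2).trans
      (Finset.sum_le_sum_of_subset_of_nonneg (filter_subset _ univ) fun i _ _ => n3 i)
    rw [sum_const, nsmul_eq_mul] at a6
    have hk' : (0 : ℝ) < k := by exact_mod_cast hk
    have a7 : (k : ℝ) * (1 / k * (1 / 2)) ≤ _ :=
      mul_le_mul_of_nonneg_right (Nat.cast_le.2 a5) (by positivity)
    rw [← mul_assoc, mul_one_div_cancel hk'.ne'] at a7
    linarith
  · obtain ⟨s, ω⟩ := x
    simp only [Fintype.sum_sum_type, Sum.elim_inl, Sum.elim_inr, Prod.smul_mk, Prod.mk_add_mk,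
      smul_zero, add_zero]
    have hs : ∀ t : ℕ, s + t = ((s.val + t : ℕ) : ZMod N) := fun t => by simp
    have c1 : ∀ t : Fin (w * Mo), (ED ((List.range m).flatMap fun j => L ω (s.val / Mo + j))
        ((List.range m).flatMap fun j => L ω ((s + (t : ℕ) • 1).val / Mo + j)) : ℝ)
        ≤ 2 * w / m * (m * (24 * k) : ℕ) ^ (l + 1) := fun t => by
      obtain ⟨δ, hδ⟩ := Nat.exists_eq_add_of_le (Nat.div_le_div_right (c := Mo)
        (Nat.le_add_right s.val t))
      have d1 : δ ≤ w := by
        have := Nat.div_le_div_right (c := Mo) (Nat.add_le_add_left t.2.le s.val)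
        rw [Nat.add_mul_div_right _ _ hMo] at this
        omega
      simp only [nsmul_eq_mul, mul_one, hs, red, hδ, add_assoc]
      have d2 := (ed_shift (fun j => L ω (s.val / Mo + j)) (fun j => Llen _ _) m δ).trans
        (Nat.mul_le_mul_left _ d1)
      refine (Nat.cast_le.2 d2).trans (le_of_eq ?_)
      push_cast
      field_simp
      ring
    have c2 : ∀ t : Fin N, (List.range m).flatMap (fun j => L (ω + (t : ℕ) • fun i => -g i)
        ((s + (t : ℕ) • (Mo : ZMod N)).val / Mo + j))
        = (List.range m).flatMap fun j => L ω (s.val / Mo + j) := fun t => by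
      rw [nsmul_eq_mul, ← Nat.cast_mul, hs]
      simp only [red, Nat.add_mul_div_right _ _ hMo]
      simp only [hL, add_smul, Pi.add_apply, Pi.smul_apply, smul_neg]
      congr with j
      congr! 3
      abel_nf
    have c3 : ∀ i, ∑ t, wt t / k * (ED ((List.range m).flatMap fun j => L ω (s.val / Mo + j))
        ((List.range m).flatMap fun j => L (ω + Pi.single i (mv t)) (s.val / Mo + j)) : ℝ)
        ≤ m * (C * (m * (24 * k) : ℕ) ^ l) / k := fun i => by
      have d1 : ∀ t, ED ((List.range m).flatMap fun j => L ω (s.val / Mo + j))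
          ((List.range m).flatMap fun j => L (ω + Pi.single i (mv t)) (s.val / Mo + j))
          ≤ ∑ j ∈ range m, ED (Φ (ω i + (s.val / Mo + j) • g i))
            (Φ (ω i + (s.val / Mo + j) • g i + mv t)) := fun t => by
        refine (ed_flatMap _ _ _).trans ?_
        refine List.sum_le_sum fun j _ => (ed_letter _ _).trans (le_of_eq ?_)
        rw [Finset.sum_eq_single i (fun i' _ hi' => by simp [hi', ed_self]) (by simp)]
        simp [add_right_comm]
      simp only [div_mul_eq_mul_div (wt _), ← Finset.sum_div]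
      refine div_le_div_of_nonneg_right ((Finset.sum_le_sum fun t _ =>
        mul_le_mul_of_nonneg_left (Nat.cast_le.2 (d1 t)) (hwt t)).trans ?_) (Nat.cast_nonneg _)
      simp only [Nat.cast_sum, Finset.mul_sum]
      rw [Finset.sum_comm]
      exact (Finset.sum_le_sum fun j _ => hcost _).trans (by simp)
    simp only [c2, ed_self, Nat.cast_zero, mul_zero, sum_const_zero, zero_add, Fintype.sum_prod_type]
    rw [add_mul]
    refine add_le_add ((Finset.sum_le_sum fun t _ => mul_le_mul_of_nonneg_left (c1 t)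
      (by positivity)).trans (le_of_eq ?_)) ((Finset.sum_le_sum fun i _ => c3 i).trans (le_of_eq ?_))
    · rw [sum_const, card_univ, Fintype.card_fin, nsmul_eq_mul, ← mul_assoc,
        mul_one_div_cancel (by positivity), one_mul]
    · rw [sum_const, card_univ, Fintype.card_fin, nsmul_eq_mul]
      push_cast
      ring
  · obtain ⟨s, ω⟩ := x
    have key : ∀ j' ∈ List.range m, Far (L ω (s.val / Mo + j')) {Y | ∃ c : ℤ, ∃ i < m,
        ¬(q (l + 1) j : ℤ) ∣ c ∧ Y = L ω ((s + c • ((N / q (l + 1) j) • 1)).val / Mo + i)}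
        (12 * k * (m * (12 * k)) ^ l) := fun j' hj' => by
      have := far_letter (t := 4 * k) (fun i => Φ (ω i + (s.val / Mo + j') • g i)) (fun i => hlen _)
        _ (fun i => hfar i _) (Nat.pow_le_pow_left (Nat.mul_le_mul_left _ (by omega)) _)
      rw [show 24 * k - 3 * (4 * k) = 12 * k by omega] at this
      refine this.mono ?_
      rintro _ ⟨c, i, hi, hc, rfl⟩
      have hj' := List.mem_range.1 hj'
      generalize hs' : s + c • ((N / q (l + 1) j) • (1 : ZMod N)) = s'
      have d1 : (N : ℤ) ∣ (s.val + c * (N / q (l + 1) j : ℕ)) - s'.val := by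
        rw [← ZMod.intCast_eq_intCast_iff_dvd_sub, Int.cast_add, Int.cast_mul, Int.cast_natCast,
          Int.cast_natCast, Int.cast_natCast, ZMod.natCast_zmod_val, ZMod.natCast_zmod_val, ← hs']
        simp
      obtain ⟨t, ht⟩ := d1
      obtain ⟨u, hu⟩ : q (l + 1) j ∣ Mo := Finset.dvd_prod_of_mem _ (mem_univ j)
      have hp := h.two (l + 1) j
      have hcop := h.cop l j
      have hfar' := h.far l j
      rw [← hMc'] at hcop
      generalize q (l + 1) j = p at *
      have d2 : N / p = Mc * u := by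
        rw [hN, hu, mul_left_comm, Nat.mul_div_cancel_left _ hp]
      have d3 := Nat.div_add_mod s.val Mo
      have d4 := Nat.div_add_mod s'.val Mo
      have d5 := Nat.mod_lt s.val hMo
      have d6 := Nat.mod_lt s'.val hMo
      generalize s.val / Mo = o at *
      generalize s'.val / Mo = o' at *
      generalize s.val % Mo = r at *
      generalize s'.val % Mo = r' at *
      have hu0 : (0 : ℤ) < u := by
        have : 0 < u := Nat.pos_of_mul_pos_left (hu ▸ hMo)
        exact_mod_cast this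
      have d7 : (u : ℤ) * (p * (o' - o) - (c - t * p) * Mc) = r - r' := by
        rw [d2, ← d3, ← d4, hN, hu] at ht
        push_cast at ht
        linarith
      have d8 : |(p * (o' - o) - (c - t * p) * Mc : ℤ)| ≤ p := by
        refine le_of_mul_le_mul_left ?_ hu0
        rw [← abs_of_pos hu0, ← abs_mul, d7, abs_of_pos hu0, abs_le]
        rw [hu] at d5 d6
        constructor <;> zify at d5 d6 <;> linarith [Int.natCast_nonneg r, Int.natCast_nonneg r']
      refine ⟨_, rfl, fun i => hlen _, _, hfar' (p * ((o' + i : ℕ) - (o + j' : ℕ))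
        - (c - t * p) * Mc) (fun h0 => hc ?_) ?_, fun i' hi' => ⟨(o' + i : ℕ) - (o + j' : ℕ),
        fun hd => hi' (mem_filter.2 ⟨mem_univ _, (hd.mul_left _).sub (Dvd.dvd.mul_left ?_ _)⟩), ?_⟩⟩
      · have : (p : ℤ) ∣ (c - t * p) * Mc := ⟨_, (sub_eq_zero.1 h0).symm⟩
        have := (Nat.isCoprime_iff_coprime.2 hcop).dvd_of_dvd_mul_right this
        simpa using this.add (dvd_mul_left (p : ℤ) t)
      · have d9 : |((i : ℤ) - j')| ≤ m := abs_le.2 ⟨by omega, by omega⟩
        have d10 := abs_add_le (p * (o' - o) - (c - t * p) * Mc : ℤ) (p * (i - j'))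
        rw [abs_mul, Nat.abs_cast] at d10
        have d11 := mul_le_mul_of_nonneg_left d9 (Int.natCast_nonneg p)
        push_cast
        refine le_trans (le_of_eq (by congr 1; ring)) (d10.trans (by linarith))
      · exact_mod_cast Finset.dvd_prod_of_mem (q l) (mem_univ i')
      · congr 1
        rw [sub_smul, natCast_zsmul, natCast_zsmul]
        change _ = ω i' + (o + j') • g i' + ((o' + i) • g i' - (o + j') • g i')
        abel
    have := (far_flatMap _ _ key).flat (S' := {Y | ∃ c : ℤ, ¬(q (l + 1) j : ℤ) ∣ c ∧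
      Y = (List.range m).flatMap fun i => L ω ((s + c • ((N / q (l + 1) j) • 1)).val / Mo + i)}) (by
        rintro _ ⟨c, hc, rfl⟩
        refine ⟨_, fun Z hZ => ?_, List.flatMap_def⟩
        obtain ⟨i, hi, rfl⟩ := List.mem_map.1 hZ
        exact ⟨c, i, List.mem_range.1 hi, hc, rfl⟩)
    rw [List.length_range, ← mul_assoc, ← pow_succ'] at this
    simpa using this

end Vale.Agent.P238
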